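import Vale.Agent.P241.H733.Star
import Mathlib.GroupTheory.GroupAction.SubMulAction
import Mathlib.GroupTheory.GroupAction.ConjAct
import Mathlib.Algebra.Group.Subgroup.Pointwise
import Mathlib.GroupTheory.Index

/-!
# P241: the space `XA X A m`

`A ≤ G` finite, `X` a `G`-space. `XA X A m` is the closed subset of `X × (Fin m → Star (G ⧸ A))`
of the pairs `(x, z)` such that all labels of the nonzero coordinates of `z` have the same
stabiliser `A'`, and `x` is fixed by `A'` if `z ≠ 0`. In the classical notation
`(XA X A m)⁺` is the cofibre of `G₊ ∧_N (E_(m-1)+ ∧ X^A) → X⁺`.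
-/

open Set MulAction

namespace Vale.Agent.P241.H733

section labels

variable {G : Type} [Group G] (A : Subgroup G)

/-- the pairs `(x, z)`, all labels of `z` have the same stabiliser, which fixes `x` -/
def xaSet (X : Type) [MulAction G X] (m : ℕ) : Set (X × (Fin m → Star (G ⧸ A))) :=
  {p | (∀ i j a b, p.2 i a ≠ 0 → p.2 j b ≠ 0 → stabilizer G a = stabilizer G b) ∧
    ∀ i a, p.2 i a ≠ 0 → ∀ g ∈ stabilizer G a, g • p.1 = p.1}

theorem isClosed_xaSet (X : Type) [TopologicalSpace X] [T2Space X] [MulAction G X]
    [ContinuousConstSMul G X] (m : ℕ) : IsClosed (xaSet A X m) := by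
  have hc : ∀ i a, Continuous fun p : X × (Fin m → Star (G ⧸ A)) => p.2 i a := fun i a =>
    (Star.continuous_eval a).comp ((continuous_apply i).comp continuous_snd)
  have h : xaSet A X m = (⋂ i, ⋂ j, ⋂ a, ⋂ b, ⋂ _ : stabilizer G a ≠ stabilizer G b,
      {p : X × (Fin m → Star (G ⧸ A)) | p.2 i a = 0 ∨ p.2 j b = 0}) ∩
      ⋂ i, ⋂ a, ⋂ g : G, ⋂ _ : g ∈ stabilizer G a,
        {p : X × (Fin m → Star (G ⧸ A)) | p.2 i a = 0 ∨ g • p.1 = p.1} := by
    ext p
    simp only [xaSet, mem_ofPred_eq, mem_inter_iff, mem_iInter]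
    refine and_congr ⟨fun h i j a b hab => ?_, fun h i j a b hi hj => ?_⟩
      ⟨fun h i a g hg => ?_, fun h i a hi g hg => ?_⟩
    · by_contra hne
      push Not at hne
      exact hab (h i j a b hne.1 hne.2)
    · by_contra hne
      rcases h i j a b hne with h1 | h1
      exacts [hi h1, hj h1]
    · by_contra hne
      push Not at hne
      exact hne.2 (h i a hne.1 g hg)
    · rcases h i a g hg with h1 | h1
      exacts [absurd h1 hi, h1]
  rw [h]
  refine IsClosed.inter ?_ ?_
  · exact isClosed_iInter fun i => isClosed_iInter fun j => isClosed_iInter fun a =>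
      isClosed_iInter fun b => isClosed_iInter fun _ =>
        (isClosed_eq (hc i a) continuous_const).union (isClosed_eq (hc j b) continuous_const)
  · exact isClosed_iInter fun i => isClosed_iInter fun a => isClosed_iInter fun g =>
      isClosed_iInter fun _ => (isClosed_eq (hc i a) continuous_const).union
        (isClosed_eq ((continuous_const_smul g).comp continuous_fst) continuous_fst)

variable {A}

theorem smul_mem_xaSet {X : Type} [MulAction G X] {m : ℕ} (g : G)
    {p : X × (Fin m → Star (G ⧸ A))} (hp : p ∈ xaSet A X m) :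
    (g • p.1, fun i => g • p.2 i) ∈ xaSet A X m := by
  refine ⟨fun i j a b ha hb => ?_, fun i a ha h hh => ?_⟩
  · have h1 := hp.1 i j (g⁻¹ • a) (g⁻¹ • b) ha hb
    rw [stabilizer_smul_eq_stabilizer_map_conj, stabilizer_smul_eq_stabilizer_map_conj] at h1
    exact Subgroup.map_injective (MulAut.conj g⁻¹).injective h1
  · have h1 := hp.2 i (g⁻¹ • a) ha (g⁻¹ * h * g) (by
      rw [mem_stabilizer_iff] at hh ⊢
      rw [mul_smul, mul_smul, smul_inv_smul, hh])
    change h • g • p.1 = g • p.1
    rw [mul_smul, mul_smul, inv_smul_eq_iff] at h1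
    exact h1

end labels

/-- the space `XA X A m` -/
def XA {G : Type} [Group G] (X : Type) [MulAction G X] (A : Subgroup G) (m : ℕ) : Type :=
  xaSet A X m

namespace XA

variable {G : Type} [Group G] {X : Type} {A : Subgroup G} {m : ℕ}

section basic

variable [MulAction G X]

/-- the point of `X` -/
def fst (p : XA X A m) : X := p.1.1

/-- the cone coordinates -/
def snd (p : XA X A m) : Fin m → Star (G ⧸ A) := p.1.2

@[ext]
theorem ext {p q : XA X A m} (h1 : p.fst = q.fst) (h2 : p.snd = q.snd) : p = q :=
  Subtype.ext (Prod.ext h1 h2)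

theorem stab_eq (p : XA X A m) {i j : Fin m} {a b : G ⧸ A} (ha : p.snd i a ≠ 0)
    (hb : p.snd j b ≠ 0) : stabilizer G a = stabilizer G b := p.2.1 i j a b ha hb

theorem smul_fst_of_mem_stab (p : XA X A m) {i : Fin m} {a : G ⧸ A} (ha : p.snd i a ≠ 0) {g : G}
    (hg : g ∈ stabilizer G a) : g • p.fst = p.fst := p.2.2 i a ha g hg

instance : MulAction G (XA X A m) where
  smul g p := ⟨(g • p.fst, fun i => g • p.snd i), smul_mem_xaSet g p.2⟩
  one_smul p := ext (one_smul G p.fst) (funext fun i => one_smul G (p.snd i))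
  mul_smul g h p := ext (mul_smul g h p.fst) (funext fun i => mul_smul g h (p.snd i))

@[simp] theorem smul_fst (g : G) (p : XA X A m) : (g • p).fst = g • p.fst := rfl

@[simp] theorem smul_snd (g : G) (p : XA X A m) (i : Fin m) : (g • p).snd i = g • p.snd i := rfl

/-- the inclusion of `X` -/
def incl (x : X) : XA X A m :=
  ⟨(x, 0), fun _ _ _ _ h => absurd rfl h, fun _ _ h => absurd rfl h⟩

@[simp] theorem incl_fst (x : X) : (incl x : XA X A m).fst = x := rfl

@[simp] theorem incl_snd (x : X) : (incl x : XA X A m).snd = 0 := rfl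

theorem incl_smul (g : G) (x : X) : (incl (g • x) : XA X A m) = g • incl x := rfl

theorem eq_incl {p : XA X A m} (h : p.snd = 0) : p = incl p.fst := ext rfl h

theorem exists_label {p : XA X A m} (h : p.snd ≠ 0) : ∃ i a, p.snd i a ≠ 0 := by
  by_contra hc
  push Not at hc
  exact h (funext fun i => Star.ext (hc i))

/-- the inclusion of `XA X A m` in `XA X A (m + 1)`: the last coordinate is zero -/
def succ (p : XA X A m) : XA X A (m + 1) :=
  ⟨(p.fst, Fin.snoc p.snd 0), by
    have key : ∀ (i : Fin (m + 1)) (a : G ⧸ A),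
        (Fin.snoc p.snd 0 : Fin (m + 1) → Star (G ⧸ A)) i a ≠ 0 →
          ∃ i' : Fin m, p.snd i' a ≠ 0 := by
      intro i a
      refine Fin.lastCases ?_ (fun i' => ?_) i
      · intro h
        rw [Fin.snoc_last] at h
        exact absurd rfl h
      · intro h
        rw [Fin.snoc_castSucc] at h
        exact ⟨i', h⟩
    refine ⟨fun i j a b ha hb => ?_, fun i a ha g hg => ?_⟩
    · obtain ⟨i', hi'⟩ := key i a ha
      obtain ⟨j', hj'⟩ := key j b hb
      exact p.stab_eq hi' hj'
    · obtain ⟨i', hi'⟩ := key i a ha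
      exact p.smul_fst_of_mem_stab hi' hg⟩

@[simp] theorem succ_fst (p : XA X A m) : p.succ.fst = p.fst := rfl

@[simp] theorem succ_snd_castSucc (p : XA X A m) (i : Fin m) :
    p.succ.snd i.castSucc = p.snd i := Fin.snoc_castSucc (α := fun _ => Star (G ⧸ A)) ..

@[simp] theorem succ_snd_last (p : XA X A m) : p.succ.snd (Fin.last m) = 0 :=
  Fin.snoc_last (α := fun _ => Star (G ⧸ A)) ..

theorem succ_snd (p : XA X A m) :
    p.succ.snd = (Fin.snoc p.snd 0 : Fin (m + 1) → Star (G ⧸ A)) := rfl

@[simp] theorem succ_incl (x : X) : (incl x : XA X A m).succ = incl x := by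
  refine ext rfl (funext fun i => ?_)
  refine Fin.lastCases ?_ (fun i' => ?_) i
  · rw [succ_snd_last]; rfl
  · rw [succ_snd_castSucc]; rfl

theorem succ_smul (g : G) (p : XA X A m) : (g • p).succ = g • p.succ := by
  refine ext rfl (funext fun i => ?_)
  refine Fin.lastCases ?_ (fun i' => ?_) i
  · rw [succ_snd_last, smul_snd, succ_snd_last, Star.smul_zero]
  · rw [succ_snd_castSucc, smul_snd, smul_snd, succ_snd_castSucc]

end basic

section topology

variable [TopologicalSpace X] [MulAction G X]

instance : TopologicalSpace (XA X A m) := inferInstanceAs (TopologicalSpace (xaSet A X m))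

instance [T2Space X] : T2Space (XA X A m) := inferInstanceAs (T2Space (xaSet A X m))

instance [T2Space X] [LocallyCompactSpace X] [ContinuousConstSMul G X] [Finite G] :
    LocallyCompactSpace (XA X A m) :=
  (isClosed_xaSet A X m).isClosedEmbedding_subtypeVal.locallyCompactSpace

theorem continuous_fst : Continuous (fst : XA X A m → X) :=
  _root_.continuous_fst.comp continuous_subtype_val

theorem continuous_snd : Continuous (snd : XA X A m → Fin m → Star (G ⧸ A)) :=
  _root_.continuous_snd.comp continuous_subtype_val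

theorem continuous_mk {P : Type*} [TopologicalSpace P] {f : P → XA X A m}
    (h1 : Continuous fun p => (f p).fst) (h2 : Continuous fun p => (f p).snd) : Continuous f :=
  Continuous.subtype_mk (h1.prodMk h2) _

instance [ContinuousConstSMul G X] : ContinuousConstSMul G (XA X A m) :=
  ⟨fun g => continuous_mk ((continuous_const_smul g).comp continuous_fst)
    (continuous_pi fun i => (continuous_const_smul g).comp
      ((continuous_apply i).comp continuous_snd))⟩

theorem isClosedEmbedding_val [T2Space X] [ContinuousConstSMul G X] :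
    Topology.IsClosedEmbedding
      (fun p : XA X A m => (p.fst, p.snd) : XA X A m → X × (Fin m → Star (G ⧸ A))) :=
  (isClosed_xaSet A X m).isClosedEmbedding_subtypeVal

theorem isClosedEmbedding_incl [T2Space X] [ContinuousConstSMul G X] :
    Topology.IsClosedEmbedding (incl : X → XA X A m) := by
  have hc : Continuous (incl : X → XA X A m) := continuous_mk continuous_id continuous_const
  have hl : Function.LeftInverse (fst : XA X A m → X) (incl : X → XA X A m) := fun _ => rfl
  exact hl.isClosedEmbedding continuous_fst hc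

theorem continuous_succ : Continuous (succ : XA X A m → XA X A (m + 1)) := by
  refine continuous_mk continuous_fst (continuous_pi fun i => ?_)
  refine Fin.lastCases ?_ (fun i' => ?_) i
  · simp only [succ_snd_last]; exact continuous_const
  · simp only [succ_snd_castSucc]; exact (continuous_apply i').comp continuous_snd

/-- forget the last coordinate -/
def pred (p : XA X A (m + 1)) : XA X A m :=
  ⟨(p.fst, fun i => p.snd i.castSucc), fun _ _ _ _ ha hb => p.stab_eq ha hb,
    fun _ _ ha _ hg => p.smul_fst_of_mem_stab ha hg⟩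

theorem continuous_pred : Continuous (pred : XA X A (m + 1) → XA X A m) :=
  continuous_mk continuous_fst
    (continuous_pi fun i => (continuous_apply i.castSucc).comp continuous_snd)

omit [TopologicalSpace X] in
theorem pred_succ (p : XA X A m) : p.succ.pred = p :=
  ext rfl (funext fun i => succ_snd_castSucc p i)

theorem isClosedEmbedding_succ [T2Space X] [ContinuousConstSMul G X] :
    Topology.IsClosedEmbedding (succ : XA X A m → XA X A (m + 1)) :=
  Function.LeftInverse.isClosedEmbedding (pred_succ (X := X) (A := A) (m := m)) continuous_pred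
    continuous_succ

end topology

/-! ### Fixed points -/

section fixed

variable [MulAction G X]

/-- a fixed point of `g` with a nonzero coordinate at the label `a`: `g` is in the stabiliser
of `a` -/
theorem mem_stab_of_smul_eq {p : XA X A m} {g : G} (hg : g • p = p) {i : Fin m} {a : G ⧸ A}
    (ha : p.snd i a ≠ 0) : g ∈ stabilizer G a := by
  have h1 : p.snd i (g • a) ≠ 0 := by
    have h2 : (g • p).snd i (g • a) = p.snd i (g • a) := by rw [hg]
    rw [smul_snd, Star.smul_apply, inv_smul_smul] at h2
    rwa [← h2]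
  exact (p.snd i).eq_of_ne_zero h1 ha

/-- the stabiliser of the coset `g A` -/
theorem stabilizer_coset (g : G) : stabilizer G (g : G ⧸ A) = A.map (MulAut.conj g).toMonoidHom := by
  have h : (g : G ⧸ A) = g • ((1 : G) : G ⧸ A) := by
    rw [MulAction.Quotient.smul_coe, smul_eq_mul, mul_one]
  rw [h, stabilizer_smul_eq_stabilizer_map_conj, MulAction.stabilizer_quotient]

/-- if `B` is not subconjugate to `A` the `B`-fixed points are the ones of `X` -/
theorem snd_eq_zero_of_fixed {B : Subgroup G}
    (hB : ∀ g : G, ¬ B ≤ A.map (MulAut.conj g).toMonoidHom) {p : XA X A m}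
    (hp : ∀ g ∈ B, g • p = p) : p.snd = 0 := by
  by_contra hne
  obtain ⟨i, a, ha⟩ := exists_label hne
  obtain ⟨g, rfl⟩ := QuotientGroup.mk_surjective a
  refine hB g fun b hb => ?_
  rw [← stabilizer_coset]
  exact mem_stab_of_smul_eq (hp b hb) ha

theorem fixed_iff_of_not_subconj {B : Subgroup G}
    (hB : ∀ g : G, ¬ B ≤ A.map (MulAut.conj g).toMonoidHom) {p : XA X A m} :
    (∀ g ∈ B, g • p = p) ↔ ∃ x : X, (∀ g ∈ B, g • x = x) ∧ p = incl x := by
  constructor
  · intro hp
    refine ⟨p.fst, fun g hg => congrArg fst (hp g hg), eq_incl (snd_eq_zero_of_fixed hB hp)⟩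
  · rintro ⟨x, hx, rfl⟩ g hg
    rw [← incl_smul, hx g hg]

/-- a point with a label fixed by `A` is fixed by `A` -/
theorem stab_eq_of_fixed [Finite G] {p : XA X A m} (hp : ∀ g ∈ A, g • p = p) {i : Fin m}
    {a : G ⧸ A} (ha : p.snd i a ≠ 0) : stabilizer G a = A := by
  obtain ⟨g, rfl⟩ := QuotientGroup.mk_surjective a
  have h1 : A ≤ stabilizer G (g : G ⧸ A) := fun b hb => mem_stab_of_smul_eq (hp b hb) ha
  refine (Subgroup.eq_of_le_of_card_ge h1 ?_).symm
  rw [stabilizer_coset, Subgroup.card_map_of_injective (MulAut.conj g).injective]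

end fixed

end XA

end Vale.Agent.P241.H733
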