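import Vale.Agent.P241.Final.BForm
import Vale.Agent.P241.H733.XA
import Mathlib.Topology.Algebra.Group.Basic

/-!
# P241: the star models as `G`-spaces

* `ofType G X` : a type with a continuous action as a `GSpace`.
* `starP G I k` : `T_I^k = (Fin k → Star I)`; `(T_I^k)⁺` is the unreduced suspension of the
  `k`-fold join of `I`; the point `0 : Fin k → Star I` is the cone point.
* `sphP G I k` : the sphere `{z ∈ T_I^k, ∑ |z i| = 1}`, the `k`-fold join of `I`.
* `xaG X A m` : `XA` as a `G`-space.
* `tpHomeo` : the comparison with `Final.tp`.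
-/

open Set Vale.Agent.P251.St Vale.Agent.P241.St

namespace Vale.Agent.P241.H733

/-- a locally compact Hausdorff space with a continuous action as a `GSpace` -/
abbrev ofType (G : Type) [Group G] (X : Type) [TopologicalSpace X] [LocallyCompactSpace X]
    [T2Space X] [MulAction G X] [ContinuousConstSMul G X] : GSpace G := ⟨X⟩

/-- `T_I^k` for a finite `G`-set `I` -/
abbrev starP (G : Type) [Group G] (I : Type) [Finite I] [MulAction G I] (k : ℕ) : GSpace G :=
  ofType G (Fin k → Star I)

/-- the sphere in `T_I^k` -/
def sphSet (I : Type) [Fintype I] (k : ℕ) : Set (Fin k → Star I) :=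
  {z | ∑ i, (z i).nrm = 1}

/-- the `k`-fold join of `I` -/
def Sph (I : Type) [Fintype I] (k : ℕ) : Type := sphSet I k

namespace Sph

variable {I : Type} [Fintype I] {k : ℕ}

instance : TopologicalSpace (Sph I k) := inferInstanceAs (TopologicalSpace (sphSet I k))

instance : T2Space (Sph I k) := inferInstanceAs (T2Space (sphSet I k))

theorem continuous_norm : Continuous fun z : Fin k → Star I => ∑ i, (z i).nrm :=
  continuous_finsetSum _ fun i _ => Star.continuous_nrm.comp (continuous_apply i)

theorem isClosed_sphSet : IsClosed (sphSet I k) := isClosed_eq continuous_norm continuous_const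

theorem isCompact_sphSet : IsCompact (sphSet I k) := by
  have hemb : Topology.IsClosedEmbedding
      (fun (z : Fin k → Star I) (i : Fin k) => (z i : I → ℝ)) := by
    have h : ∀ _ : Fin k, Topology.IsClosedEmbedding (fun x : Star I => (x : I → ℝ)) :=
      fun _ => (Star.isClosed_starSet (I := I)).isClosedEmbedding_subtypeVal
    have hc : Continuous (fun (z : Fin k → Star I) (i : Fin k) => (z i : I → ℝ)) :=
      continuous_pi fun i => Star.continuous_coe.comp (continuous_apply i)
    have hind : Topology.IsInducing (fun (z : Fin k → Star I) (i : Fin k) => (z i : I → ℝ)) :=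
      Topology.IsInducing.piMap fun i => (h i).isInducing
    refine ⟨⟨hind, fun x y hxy => funext fun i => (h i).injective (congrFun hxy i)⟩, ?_⟩
    have hr : range (fun (z : Fin k → Star I) (i : Fin k) => (z i : I → ℝ)) =
        ⋂ i, (fun w : Fin k → I → ℝ => w i) ⁻¹' starSet I := by
      ext w
      simp only [mem_range, mem_iInter, mem_preimage]
      constructor
      · rintro ⟨z, rfl⟩ i
        exact (z i).2
      · intro hw
        exact ⟨fun i => ⟨w i, hw i⟩, rfl⟩
    rw [hr]
    exact isClosed_iInter fun i => Star.isClosed_starSet.preimage (continuous_apply i)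
  rw [hemb.isInducing.isCompact_iff]
  have hsub : (fun (z : Fin k → Star I) (i : Fin k) => (z i : I → ℝ)) '' sphSet I k ⊆
      Set.pi univ fun _ : Fin k => Set.pi univ fun _ : I => Icc (0 : ℝ) 1 := by
    rintro _ ⟨z, hz, rfl⟩ i _ a _
    refine ⟨(z i).nonneg a, ?_⟩
    calc z i a ≤ (z i).nrm :=
          Finset.single_le_sum (f := fun a => z i a) (fun b _ => (z i).nonneg b)
            (Finset.mem_univ a)
      _ ≤ ∑ j, (z j).nrm :=
          Finset.single_le_sum (f := fun j => (z j).nrm) (fun j _ => (z j).nrm_nonneg)
            (Finset.mem_univ i)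
      _ = 1 := hz
  refine IsCompact.of_isClosed_subset ?_ (hemb.isClosedMap _ isClosed_sphSet) hsub
  exact isCompact_univ_pi fun _ => isCompact_univ_pi fun _ => isCompact_Icc

instance : CompactSpace (Sph I k) := isCompact_iff_compactSpace.1 isCompact_sphSet

instance : LocallyCompactSpace (Sph I k) := inferInstance

/-- the point of `T_I^k` -/
def val (z : Sph I k) : Fin k → Star I := z.1

theorem sum_nrm (z : Sph I k) : ∑ i, (z.val i).nrm = 1 := z.2

theorem continuous_val : Continuous (val : Sph I k → Fin k → Star I) := continuous_subtype_val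

variable {G : Type} [Group G] [MulAction G I]

instance : MulAction G (Sph I k) where
  smul g z := ⟨fun i => g • z.val i, by
    change ∑ i, (g • z.val i).nrm = 1
    simp only [Star.nrm_smul]
    exact z.2⟩
  one_smul z := Subtype.ext (funext fun i => one_smul G (z.val i))
  mul_smul g h z := Subtype.ext (funext fun i => mul_smul g h (z.val i))

@[simp] theorem smul_val (g : G) (z : Sph I k) (i : Fin k) : (g • z).val i = g • z.val i := rfl

instance : ContinuousConstSMul G (Sph I k) :=
  ⟨fun g => Continuous.subtype_mk (continuous_pi fun i => (continuous_const_smul g).comp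
    ((continuous_apply i).comp continuous_val)) _⟩

end Sph

/-- the `k`-fold join of `I` as a `G`-space -/
abbrev sphP (G : Type) [Group G] (I : Type) [Fintype I] [MulAction G I] (k : ℕ) : GSpace G :=
  ofType G (Sph I k)

/-- the `G`-space `XA X A m`; `(XA X A m)⁺` is the cofibre of
`G₊ ∧_N (E_(m-1)+ ∧ X^A) → X⁺` -/
abbrev xaG {G : Type} [Group G] [Finite G] (X : GSpace G) (A : Subgroup G) (m : ℕ) : GSpace G :=
  ofType G (XA X.carrier A m)

/-! ### Comparison with `Final.tp` -/

open Vale.Agent.P241.Final (starPow tp tpZero)

/-- the two models of the open cone -/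
def tpHomeo (I : Type) (k : ℕ) : starPow I k ≃ₜ (Fin k → Star I) where
  toFun z i := ⟨z.1 i, (z.2 i).1, fun a b ha hb => by
    by_contra hab
    rcases (z.2 i).2 a b hab with h | h
    exacts [ha h, hb h]⟩
  invFun z := ⟨fun i => (z i : I → ℝ), fun i => ⟨(z i).nonneg, fun a b hab => by
    by_contra hc
    push Not at hc
    exact hab ((z i).eq_of_ne_zero hc.1 hc.2)⟩⟩
  left_inv _ := rfl
  right_inv _ := rfl
  continuous_toFun := continuous_pi fun i => Star.continuous_mk fun a =>
    (continuous_apply a).comp ((continuous_apply i).comp continuous_subtype_val)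
  continuous_invFun := Continuous.subtype_mk (continuous_pi fun i =>
    Star.continuous_coe.comp (continuous_apply i)) _

@[simp] theorem tpHomeo_apply (I : Type) (k : ℕ) (z : starPow I k) (i : Fin k) (a : I) :
    tpHomeo I k z i a = z.1 i a := rfl

@[simp] theorem tpHomeo_symm_apply (I : Type) (k : ℕ) (z : Fin k → Star I) (i : Fin k) (a : I) :
    ((tpHomeo I k).symm z).1 i a = z i a := rfl

section

variable {G : Type} [Group G] {I : Type} [Finite I] [MulAction G I] {k : ℕ}

theorem tpHomeo_smul (g : G) (z : (tp G I k).carrier) :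
    tpHomeo I k (g • z : (tp G I k).carrier) = g • tpHomeo I k z := rfl

theorem tpHomeo_zero : tpHomeo I k (tpZero G I k) = 0 := rfl

end

end Vale.Agent.P241.H733
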