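import Vale.Agent.P241.H733.Defs
import Vale.Agent.P241.H137.Ell

/-!
# P241: the fixed points of `XA X A m`

* `wcoset A : Weyl A → G ⧸ A` : the cosets with stabiliser `A`.
* `XA.jA` : the inclusion `X^A × (Fin m → Star (Weyl A)) → XA X A m`.
* `fixXA` : `(xaG X A m).fix A ≃ₜ X^A × (Fin m → Star (Weyl A))`.
* `fixXA'` : `(xaG X A m).fix B ≃ₜ X.fix B` for `B` not subconjugate to `A`.
-/

open Set MulAction Vale.Agent.P251.St Vale.Agent.P241.St
open Vale.Agent.P241.H137 (Weyl NA)

namespace Vale.Agent.P241.H733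

namespace Star

variable {I J : Type}

/-- extension by zero along an injective map -/
noncomputable def push (φ : I → J) (hφ : Function.Injective φ) (x : Star I) : Star J :=
  ⟨Function.extend φ (fun i => x i) (fun _ => 0), fun j => by
    by_cases hj : ∃ i, φ i = j
    · obtain ⟨i, rfl⟩ := hj
      rw [hφ.extend_apply]
      exact x.nonneg i
    · rw [Function.extend_apply' _ _ _ hj], by
    intro j k hj hk
    by_cases h : ∃ i, φ i = j
    · by_cases h' : ∃ i, φ i = k
      · obtain ⟨i, rfl⟩ := h
        obtain ⟨i', rfl⟩ := h'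
        rw [hφ.extend_apply] at hj hk
        rw [x.eq_of_ne_zero hj hk]
      · exact absurd (Function.extend_apply' _ _ _ h') hk
    · exact absurd (Function.extend_apply' _ _ _ h) hj⟩

theorem push_apply (φ : I → J) (hφ : Function.Injective φ) (x : Star I) (i : I) :
    push φ hφ x (φ i) = x i := by
  change Function.extend φ (fun i => x i) (fun _ => 0) (φ i) = x i
  rw [hφ.extend_apply]

theorem push_apply' (φ : I → J) (hφ : Function.Injective φ) (x : Star I) {j : J}
    (hj : ¬ ∃ i, φ i = j) : push φ hφ x j = 0 := by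
  change Function.extend φ (fun i => x i) (fun _ => 0) j = 0
  rw [Function.extend_apply' _ _ _ hj]

theorem exists_of_push_ne_zero {φ : I → J} {hφ : Function.Injective φ} {x : Star I} {j : J}
    (h : push φ hφ x j ≠ 0) : ∃ i, φ i = j ∧ x i ≠ 0 := by
  by_cases hj : ∃ i, φ i = j
  · obtain ⟨i, rfl⟩ := hj
    rw [push_apply] at h
    exact ⟨i, rfl, h⟩
  · exact absurd (push_apply' φ hφ x hj) h

theorem continuous_push (φ : I → J) (hφ : Function.Injective φ) : Continuous (push φ hφ) := by
  refine continuous_mk fun j => ?_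
  by_cases hj : ∃ i, φ i = j
  · obtain ⟨i, rfl⟩ := hj
    simp only [push_apply]
    exact continuous_eval i
  · simp only [push_apply' φ hφ _ hj]
    exact continuous_const

@[simp] theorem push_zero (φ : I → J) (hφ : Function.Injective φ) : push φ hφ 0 = 0 := by
  ext j
  by_cases hj : ∃ i, φ i = j
  · obtain ⟨i, rfl⟩ := hj
    rw [push_apply]; rfl
  · rw [push_apply' φ hφ _ hj]; rfl

@[simp] theorem comap_push (φ : I → J) (hφ : Function.Injective φ) (x : Star I) :
    comap φ hφ (push φ hφ x) = x := ext fun i => push_apply φ hφ x i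

theorem push_comap (φ : I → J) (hφ : Function.Injective φ) (y : Star J)
    (hy : ∀ j, y j ≠ 0 → j ∈ range φ) : push φ hφ (comap φ hφ y) = y := by
  ext j
  by_cases hj : ∃ i, φ i = j
  · obtain ⟨i, rfl⟩ := hj
    rw [push_apply]; rfl
  · rw [push_apply' φ hφ _ hj]
    by_contra h
    exact hj (hy j fun h' => h h'.symm)

theorem push_injective {φ : I → J} (hφ : Function.Injective φ) :
    Function.Injective (push φ hφ) := fun x y h => by
  rw [← comap_push φ hφ x, h, comap_push]

theorem isClosedEmbedding_push {φ : I → J} (hφ : Function.Injective φ) :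
    Topology.IsClosedEmbedding (push φ hφ) :=
  Function.LeftInverse.isClosedEmbedding (comap_push φ hφ) (continuous_comap φ hφ)
    (continuous_push φ hφ)

theorem push_smul {G H : Type*} [Group G] [Group H] [MulAction G I] [MulAction H J] (φ : I → J)
    (hφ : Function.Injective φ) (g : G) (h : H) (hgh : ∀ i : I, φ (g • i) = h • φ i)
    (x : Star I) : push φ hφ (g • x) = h • push φ hφ x := by
  ext j
  rw [smul_apply]
  by_cases hj : ∃ i, φ i = j
  · obtain ⟨i, rfl⟩ := hj
    have h1 : φ (g⁻¹ • i) = h⁻¹ • φ i := by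
      rw [eq_inv_smul_iff, ← hgh, smul_inv_smul]
    rw [push_apply, smul_apply, ← h1, push_apply]
  · rw [push_apply' φ hφ _ hj, push_apply' φ hφ]
    rintro ⟨i, hi⟩
    exact hj ⟨g • i, by rw [hgh, hi, smul_inv_smul]⟩

end Star

section wcoset

variable {G : Type} [Group G] (A : Subgroup G)

/-- the coset `n A` for `n ∈ N(A)` -/
def wcoset (w : Weyl A) : G ⧸ A :=
  Quotient.liftOn' w (fun n => ((n : G) : G ⧸ A)) fun m n hmn => by
    rw [QuotientGroup.leftRel_apply] at hmn
    exact QuotientGroup.eq.2 hmn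

@[simp] theorem wcoset_coe (n : NA A) : wcoset A (n : Weyl A) = ((n : G) : G ⧸ A) := rfl

theorem wcoset_injective : Function.Injective (wcoset A) := by
  intro v w h
  induction v using QuotientGroup.induction_on with
  | H m =>
    induction w using QuotientGroup.induction_on with
    | H n =>
      rw [wcoset_coe, wcoset_coe] at h
      exact QuotientGroup.eq.2 (Subgroup.mem_subgroupOf.2 (QuotientGroup.eq.1 h))

theorem wcoset_smul (n : NA A) (w : Weyl A) :
    wcoset A ((n : Weyl A) • w) = (n : G) • wcoset A w := by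
  induction w using QuotientGroup.induction_on with
  | H m => rfl

theorem stabilizer_wcoset (w : Weyl A) : stabilizer G (wcoset A w) = A := by
  induction w using QuotientGroup.induction_on with
  | H n =>
    rw [wcoset_coe, XA.stabilizer_coset]
    ext x
    rw [Subgroup.mem_map]
    constructor
    · rintro ⟨a, ha, rfl⟩
      exact (Subgroup.mem_normalizer_iff.1 n.2 a).1 ha
    · intro hx
      refine ⟨(n : G)⁻¹ * x * n, ?_, by simp [mul_assoc]⟩
      have := (Subgroup.mem_normalizer_iff.1 (Subgroup.inv_mem _ n.2) x).1 hx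
      simpa using this

theorem exists_wcoset {a : G ⧸ A} (h : stabilizer G a = A) : ∃ w, wcoset A w = a := by
  obtain ⟨g, rfl⟩ := QuotientGroup.mk_surjective a
  rw [XA.stabilizer_coset] at h
  have hg : g ∈ NA A := by
    rw [Subgroup.mem_normalizer_iff]
    intro x
    constructor
    · intro hx
      rw [← h]
      exact ⟨x, hx, by simp⟩
    · intro hx
      rw [← h] at hx
      obtain ⟨y, hy, hyx⟩ := hx
      have : y = x := by simpa using hyx
      rwa [← this]
  exact ⟨((⟨g, hg⟩ : NA A) : Weyl A), rfl⟩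

end wcoset

namespace XA

variable {G : Type} [Group G] {X : Type} [MulAction G X] {A : Subgroup G} {m : ℕ}

/-- the inclusion of the `A`-fixed points -/
noncomputable def jA (x : X) (hx : ∀ a ∈ A, a • x = x) (z : Fin m → Star (Weyl A)) :
    XA X A m :=
  ⟨(x, fun i => Star.push (wcoset A) (wcoset_injective A) (z i)), by
    refine ⟨fun i j a b ha hb => ?_, fun i a ha g hg => ?_⟩
    · obtain ⟨v, rfl, -⟩ := Star.exists_of_push_ne_zero (hφ := wcoset_injective A) ha
      obtain ⟨w, rfl, -⟩ := Star.exists_of_push_ne_zero (hφ := wcoset_injective A) hb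
      rw [stabilizer_wcoset, stabilizer_wcoset]
    · obtain ⟨v, rfl, -⟩ := Star.exists_of_push_ne_zero (hφ := wcoset_injective A) ha
      rw [stabilizer_wcoset] at hg
      exact hx g hg⟩

@[simp] theorem jA_fst (x : X) (hx : ∀ a ∈ A, a • x = x) (z : Fin m → Star (Weyl A)) :
    (jA x hx z).fst = x := rfl

@[simp] theorem jA_snd (x : X) (hx : ∀ a ∈ A, a • x = x) (z : Fin m → Star (Weyl A))
    (i : Fin m) : (jA x hx z).snd i = Star.push (wcoset A) (wcoset_injective A) (z i) := rfl

theorem jA_zero (x : X) (hx : ∀ a ∈ A, a • x = x) :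
    (jA x hx (0 : Fin m → Star (Weyl A)) : XA X A m) = incl x :=
  ext rfl (funext fun i => by rw [jA_snd]; exact Star.push_zero _ _)

theorem jA_smul (n : NA A) (x : X) (hx : ∀ a ∈ A, a • x = x) (hnx : ∀ a ∈ A, a • (n : G) • x =
    (n : G) • x) (z : Fin m → Star (Weyl A)) :
    (jA ((n : G) • x) hnx (fun i => (n : Weyl A) • z i) : XA X A m) = (n : G) • jA x hx z :=
  ext rfl (funext fun i => Star.push_smul (wcoset A) (wcoset_injective A) (n : Weyl A) (n : G)
    (wcoset_smul A n) (z i))

theorem jA_fixed (x : X) (hx : ∀ a ∈ A, a • x = x) (z : Fin m → Star (Weyl A)) :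
    ∀ a ∈ A, a • (jA x hx z : XA X A m) = jA x hx z := by
  intro a ha
  refine ext (hx a ha) (funext fun i => Star.ext fun b => ?_)
  rw [smul_snd, Star.smul_apply, jA_snd]
  by_cases hb : ∃ w, wcoset A w = b
  · obtain ⟨w, rfl⟩ := hb
    have : a⁻¹ • wcoset A w = wcoset A w := by
      have h1 : a⁻¹ ∈ stabilizer G (wcoset A w) := by
        rw [stabilizer_wcoset]
        exact A.inv_mem ha
      exact h1
    rw [this]
  · rw [Star.push_apply' _ _ _ hb, Star.push_apply']
    rintro ⟨w, hw⟩
    refine hb ⟨w, ?_⟩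
    have h1 : a ∈ stabilizer G (wcoset A w) := by rwa [stabilizer_wcoset]
    have h2 : a • wcoset A w = wcoset A w := h1
    rw [← h2, hw, smul_inv_smul]

theorem fst_fixed {B : Subgroup G} {p : XA X A m} (hp : ∀ a ∈ B, a • p = p) :
    ∀ a ∈ B, a • p.fst = p.fst := by
  intro a ha
  rw [← smul_fst, hp a ha]

/-- an `A`-fixed point is in the image of `jA` -/
theorem eq_jA [Finite G] {p : XA X A m} (hp : ∀ a ∈ A, a • p = p) :
    p = jA p.fst (fst_fixed hp)
      (fun i => Star.comap (wcoset A) (wcoset_injective A) (p.snd i)) := by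
  refine ext rfl (funext fun i => ?_)
  rw [jA_snd]
  refine (Star.push_comap _ _ _ fun b hb => ?_).symm
  exact exists_wcoset A (stab_eq_of_fixed hp hb)

theorem jA_injective {x x' : X} {hx : ∀ a ∈ A, a • x = x} {hx' : ∀ a ∈ A, a • x' = x'}
    {z z' : Fin m → Star (Weyl A)} (h : (jA x hx z : XA X A m) = jA x' hx' z') :
    x = x' ∧ z = z' := by
  refine ⟨congrArg fst h, funext fun i => ?_⟩
  have h1 : (jA x hx z : XA X A m).snd i = (jA x' hx' z' : XA X A m).snd i := by rw [h]
  exact Star.push_injective (wcoset_injective A) h1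

/-- a point with nonzero cone coordinates is a translate of an `A`-fixed point -/
theorem exists_smul_jA [Finite G] {p : XA X A m} (hp : p.snd ≠ 0) :
    ∃ (g : G) (x : X) (hx : ∀ a ∈ A, a • x = x) (z : Fin m → Star (Weyl A)),
      p = g • jA x hx z := by
  obtain ⟨i, a, ha⟩ := exists_label hp
  obtain ⟨g, rfl⟩ := QuotientGroup.mk_surjective a
  have hfix : ∀ a ∈ A, a • (g⁻¹ • p) = g⁻¹ • p := by
    intro b hb
    have hst : g * b * g⁻¹ ∈ stabilizer G ((g : G) : G ⧸ A) := by
      rw [stabilizer_coset]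
      exact ⟨b, hb, by simp⟩
    have h1 : (g * b * g⁻¹) • p = p := by
      refine ext (p.smul_fst_of_mem_stab ha hst) (funext fun j => Star.ext fun c => ?_)
      rw [smul_snd, Star.smul_apply]
      by_cases hc : p.snd j c = 0
      · by_contra hne
        have h2 : p.snd j ((g * b * g⁻¹)⁻¹ • c) ≠ 0 := fun h0 => hne (h0.trans hc.symm)
        have h3 : g * b * g⁻¹ ∈ stabilizer G ((g * b * g⁻¹)⁻¹ • c) := by
          rw [← p.stab_eq ha h2]
          exact hst
        have h4 : (g * b * g⁻¹) • (g * b * g⁻¹)⁻¹ • c = (g * b * g⁻¹)⁻¹ • c := h3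
        rw [smul_inv_smul] at h4
        rw [← h4] at h2
        exact h2 hc
      · have h3 : g * b * g⁻¹ ∈ stabilizer G c := by
          rw [← p.stab_eq ha hc]
          exact hst
        have h4 : (g * b * g⁻¹)⁻¹ • c = c := (stabilizer G c).inv_mem h3
        rw [h4]
    rw [mul_smul, mul_smul] at h1
    rw [eq_inv_smul_iff]
    exact h1
  refine ⟨g, (g⁻¹ • p).fst, fst_fixed hfix,
    fun i => Star.comap (wcoset A) (wcoset_injective A) ((g⁻¹ • p).snd i), ?_⟩
  rw [← eq_jA hfix, smul_inv_smul]

/-- two translates of `A`-fixed points with nonzero cone coordinates -/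
theorem mem_NA_of_smul_jA_eq {g g' : G} {x x' : X} {hx : ∀ a ∈ A, a • x = x}
    {hx' : ∀ a ∈ A, a • x' = x'} {z z' : Fin m → Star (Weyl A)} (hz : z ≠ 0)
    (h : g • (jA x hx z : XA X A m) = g' • jA x' hx' z') : g'⁻¹ * g ∈ NA A := by
  obtain ⟨i, hi⟩ : ∃ i, z i ≠ 0 := by
    by_contra hc
    push Not at hc
    exact hz (funext hc)
  obtain ⟨w, hw⟩ := Star.exists_ne_zero hi
  have h1 : (g • (jA x hx z : XA X A m)).snd i (g • wcoset A w) ≠ 0 := by
    rw [smul_snd, Star.smul_apply, inv_smul_smul, jA_snd, Star.push_apply]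
    exact hw
  rw [h, smul_snd, Star.smul_apply, jA_snd] at h1
  obtain ⟨w', hw', -⟩ := Star.exists_of_push_ne_zero h1
  have h2 : wcoset A w' = (g'⁻¹ * g) • wcoset A w := by rw [hw', mul_smul]
  have h3 : stabilizer G ((g'⁻¹ * g) • wcoset A w) = A := by rw [← h2, stabilizer_wcoset]
  rw [stabilizer_smul_eq_stabilizer_map_conj, stabilizer_wcoset] at h3
  rw [Subgroup.mem_normalizer_iff]
  intro y
  constructor
  · intro hy
    rw [← h3]
    exact ⟨y, hy, rfl⟩
  · intro hy
    rw [← h3] at hy
    obtain ⟨y', hy', hyy⟩ := hy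
    have : y' = y := (MulAut.conj (g'⁻¹ * g)).injective hyy
    rwa [← this]

end XA

/-! ### Homeomorphisms -/

section homeo

variable {G : Type} [Group G] [Finite G] (X : GSpace G) (A : Subgroup G) (m : ℕ)

omit [Finite G] in
theorem mem_fixedPoints' {X : GSpace G} {B : Subgroup G} {x : X.carrier} :
    x ∈ MulAction.fixedPoints B X.carrier ↔ ∀ b ∈ B, b • x = x :=
  ⟨fun h b hb => h ⟨b, hb⟩, fun h b => h b.1 b.2⟩

/-- **The `A`-fixed points of `XA`.** -/
noncomputable def fixXA : ((xaG X A m).fix A).carrier ≃ₜ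
    (X.fix A).carrier × (Fin m → Star (Weyl A)) where
  toFun p := (⟨XA.fst p.1, mem_fixedPoints'.2 (XA.fst_fixed (mem_fixedPoints'.1 p.2))⟩,
    fun i => Star.comap (wcoset A) (wcoset_injective A) (XA.snd p.1 i))
  invFun q := ⟨XA.jA q.1.1 (mem_fixedPoints'.1 q.1.2) q.2,
    mem_fixedPoints'.2 (XA.jA_fixed q.1.1 (mem_fixedPoints'.1 q.1.2) q.2)⟩
  left_inv p := Subtype.ext (XA.eq_jA (mem_fixedPoints'.1 p.2)).symm
  right_inv q := Prod.ext (Subtype.ext rfl) (funext fun i =>
    Star.comap_push (wcoset A) (wcoset_injective A) (q.2 i))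
  continuous_toFun := by
    refine Continuous.prodMk (Continuous.subtype_mk (XA.continuous_fst.comp
      continuous_subtype_val) _) (continuous_pi fun i => ?_)
    exact (Star.continuous_comap _ _).comp ((continuous_apply i).comp
      (XA.continuous_snd.comp continuous_subtype_val))
  continuous_invFun := by
    refine Continuous.subtype_mk (XA.continuous_mk (continuous_subtype_val.comp
      continuous_fst) (continuous_pi fun i => ?_)) _
    exact (Star.continuous_push (wcoset A) (wcoset_injective A)).comp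
      ((continuous_apply i).comp continuous_snd)

/-- **The `B`-fixed points of `XA`** for `B` not subconjugate to `A`. -/
noncomputable def fixXA' {B : Subgroup G}
    (hB : ∀ g : G, ¬ B ≤ A.map (MulAut.conj g).toMonoidHom) :
    ((xaG X A m).fix B).carrier ≃ₜ (X.fix B).carrier where
  toFun p := ⟨XA.fst p.1, mem_fixedPoints'.2 (XA.fst_fixed (mem_fixedPoints'.1 p.2))⟩
  invFun x := ⟨XA.incl x.1, fun b => by
    have h : (b : G) • (XA.incl x.1 : XA X.carrier A m) = XA.incl x.1 := by
      rw [← XA.incl_smul]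
      exact congrArg XA.incl (x.2 b)
    exact h⟩
  left_inv p := Subtype.ext
    (XA.eq_incl (XA.snd_eq_zero_of_fixed hB (mem_fixedPoints'.1 p.2))).symm
  right_inv _ := rfl
  continuous_toFun := Continuous.subtype_mk (XA.continuous_fst.comp continuous_subtype_val) _
  continuous_invFun := Continuous.subtype_mk
    (XA.isClosedEmbedding_incl.continuous.comp continuous_subtype_val) _

end homeo

end Vale.Agent.P241.H733
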