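import Mathlib.Topology.Algebra.ConstMulAction
import Mathlib.Topology.Algebra.Monoid
import Mathlib.Topology.Instances.Real.Lemmas
import Mathlib.Topology.Instances.NNReal.Lemmas
import Mathlib.Topology.Separation.Hausdorff
import Mathlib.Topology.Algebra.Group.Basic
import Mathlib.GroupTheory.GroupAction.Quotient

/-!
# P241: the open cone on a set

`Star I` is the open cone on the discrete set `I`: the functions `I → [0, ∞)` with at most one
nonzero value. `Fin m → Star I` is the open cone on the `m`-fold join of `I`, that is, its
one-point compactification is the unreduced suspension of the join.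
-/

open Set

namespace Vale.Agent.P241.H733

/-- the nonnegative functions on `I` with at most one nonzero value -/
def starSet (I : Type) : Set (I → ℝ) :=
  {x | (∀ i, 0 ≤ x i) ∧ ∀ i j, x i ≠ 0 → x j ≠ 0 → i = j}

/-- the open cone on the discrete set `I` -/
def Star (I : Type) : Type := starSet I

namespace Star

variable {I J : Type}

instance : TopologicalSpace (Star I) := inferInstanceAs (TopologicalSpace (starSet I))

instance : T2Space (Star I) := inferInstanceAs (T2Space (starSet I))

theorem isClosed_starSet : IsClosed (starSet I) := by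
  have h : starSet I = (⋂ i, {x : I → ℝ | 0 ≤ x i}) ∩
      ⋂ i, ⋂ j, ⋂ _ : i ≠ j, {x : I → ℝ | x i * x j = 0} := by
    ext x
    simp only [starSet, mem_ofPred_eq, mem_inter_iff, mem_iInter]
    refine and_congr_right fun _ => ⟨fun h i j hij => ?_, fun h i j hi hj => ?_⟩
    · by_contra hne
      exact hij (h i j (left_ne_zero_of_mul hne) (right_ne_zero_of_mul hne))
    · by_contra hne
      exact mul_ne_zero hi hj (h i j hne)
  rw [h]
  refine (isClosed_iInter fun i => isClosed_le continuous_const (continuous_apply i)).inter ?_
  exact isClosed_iInter fun i => isClosed_iInter fun j => isClosed_iInter fun _ =>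
    isClosed_eq ((continuous_apply i).mul (continuous_apply j)) continuous_const

instance [Finite I] : LocallyCompactSpace (Star I) :=
  (isClosed_starSet (I := I)).isClosedEmbedding_subtypeVal.locallyCompactSpace

instance : CoeFun (Star I) fun _ => I → ℝ := ⟨fun x => x.1⟩

@[ext]
theorem ext {x y : Star I} (h : ∀ i, x i = y i) : x = y := Subtype.ext (funext h)

theorem nonneg (x : Star I) (i : I) : 0 ≤ x i := x.2.1 i

theorem eq_of_ne_zero (x : Star I) {i j : I} (hi : x i ≠ 0) (hj : x j ≠ 0) : i = j :=
  x.2.2 i j hi hj

theorem continuous_coe : Continuous (fun x : Star I => (x : I → ℝ)) := continuous_subtype_val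

theorem continuous_eval (i : I) : Continuous (fun x : Star I => x i) :=
  (continuous_apply i).comp continuous_coe

theorem continuous_mk {P : Type*} [TopologicalSpace P] {f : P → Star I}
    (h : ∀ i, Continuous fun p => f p i) : Continuous f :=
  Continuous.subtype_mk (continuous_pi h) _

instance : Zero (Star I) := ⟨⟨fun _ => 0, fun _ => le_rfl, fun _ _ h => absurd rfl h⟩⟩

@[simp] theorem zero_apply (i : I) : (0 : Star I) i = 0 := rfl

instance : Inhabited (Star I) := ⟨0⟩

theorem eq_zero_iff {x : Star I} : x = 0 ↔ ∀ i, x i = 0 :=
  ⟨fun h i => by rw [h]; rfl, fun h => ext h⟩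

theorem exists_ne_zero {x : Star I} (h : x ≠ 0) : ∃ i, x i ≠ 0 := by
  by_contra hc
  push Not at hc
  exact h (eq_zero_iff.2 hc)

section action

variable {G : Type*} [Group G] [MulAction G I] [MulAction G J]

instance : MulAction G (Star I) where
  smul g x := ⟨fun i => x (g⁻¹ • i), fun i => x.nonneg _, fun i j hi hj =>
    (MulAction.injective g⁻¹) (x.eq_of_ne_zero hi hj)⟩
  one_smul x := ext fun i => by
    change x ((1 : G)⁻¹ • i) = x i
    simp
  mul_smul g h x := ext fun i => by
    change x ((g * h)⁻¹ • i) = x (h⁻¹ • g⁻¹ • i)
    rw [mul_inv_rev, mul_smul]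

@[simp] theorem smul_apply (g : G) (x : Star I) (i : I) : (g • x) i = x (g⁻¹ • i) := rfl

@[simp] theorem smul_zero (g : G) : g • (0 : Star I) = 0 := rfl

instance : ContinuousConstSMul G (Star I) :=
  ⟨fun g => continuous_mk fun i => continuous_eval (g⁻¹ • i)⟩

end action

/-! ### functoriality -/

open scoped Classical in
/-- the map induced by a map of sets with finite source: the value at `j` is the sum over the
fibre -/
noncomputable def map [Fintype I] (φ : I → J) (x : Star I) : Star J :=
  ⟨fun j => ∑ i, if φ i = j then x i else 0,
    fun j => Finset.sum_nonneg fun i _ => by split <;> [exact x.nonneg i; exact le_rfl], by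
    intro j k hj hk
    obtain ⟨i, _, hi⟩ := Finset.exists_ne_zero_of_sum_ne_zero hj
    obtain ⟨i', _, hi'⟩ := Finset.exists_ne_zero_of_sum_ne_zero hk
    by_cases h : φ i = j
    · by_cases h' : φ i' = k
      · rw [if_pos h] at hi
        rw [if_pos h'] at hi'
        rw [← h, ← h', x.eq_of_ne_zero hi hi']
      · rw [if_neg h'] at hi'
        exact absurd rfl hi'
    · rw [if_neg h] at hi
      exact absurd rfl hi⟩

open scoped Classical in
theorem map_apply [Fintype I] (φ : I → J) (x : Star I) (j : J) :
    map φ x j = ∑ i, if φ i = j then x i else 0 := rfl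

theorem continuous_map [Fintype I] (φ : I → J) : Continuous (map φ) := by
  classical
  refine continuous_mk fun j => ?_
  simp only [map_apply]
  refine continuous_finsetSum _ fun i _ => ?_
  split
  · exact continuous_eval i
  · exact continuous_const

@[simp] theorem map_zero [Fintype I] (φ : I → J) : map φ (0 : Star I) = 0 := by
  ext j
  simp [map_apply]

theorem map_apply_of_label [Fintype I] (φ : I → J) (x : Star I) {i : I} (hi : x i ≠ 0) :
    map φ x (φ i) = x i := by
  classical
  rw [map_apply, Finset.sum_eq_single i]
  · simp
  · intro b _ hb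
    have : x b = 0 := by
      by_contra h
      exact hb (x.eq_of_ne_zero h hi)
    simp [this]
  · simp

theorem exists_of_map_ne_zero [Fintype I] (φ : I → J) (x : Star I) {j : J} (hj : map φ x j ≠ 0) :
    ∃ i, φ i = j ∧ x i ≠ 0 ∧ map φ x j = x i := by
  classical
  rw [map_apply] at hj
  obtain ⟨i, _, hi⟩ := Finset.exists_ne_zero_of_sum_ne_zero hj
  by_cases h : φ i = j
  · rw [if_pos h] at hi
    exact ⟨i, h, hi, by rw [← h]; exact map_apply_of_label φ x hi⟩
  · rw [if_neg h] at hi
    exact absurd rfl hi

theorem map_smul {G : Type*} [Group G] [MulAction G I] [MulAction G J] [Fintype I] (φ : I → J)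
    (hφ : ∀ (g : G) (i : I), φ (g • i) = g • φ i) (g : G) (x : Star I) :
    map φ (g • x) = g • map φ x := by
  classical
  ext j
  rw [smul_apply, map_apply, map_apply]
  refine Fintype.sum_equiv (MulAction.toPerm g⁻¹) _ _ fun i => ?_
  simp only [MulAction.toPerm_apply, smul_apply]
  have : (φ i = j) ↔ (φ (g⁻¹ • i) = g⁻¹ • j) := by
    rw [hφ]
    exact (MulAction.injective g⁻¹).eq_iff.symm
  simp only [this]

theorem map_injective [Fintype I] {φ : I → J} (hφ : Function.Injective φ) :
    Function.Injective (map φ : Star I → Star J) := by
  classical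
  intro x y h
  ext i
  have h1 := congrArg (fun z : Star J => z (φ i)) h
  simpa [map_apply, hφ.eq_iff] using h1

theorem map_apply_injective [Fintype I] {φ : I → J} (hφ : Function.Injective φ) (x : Star I)
    (i : I) : map φ x (φ i) = x i := by
  classical
  simp [map_apply, hφ.eq_iff]

/-- the restriction to the image of an injective map -/
def comap (φ : I → J) (hφ : Function.Injective φ) (y : Star J) : Star I :=
  ⟨fun i => y (φ i), fun _ => y.nonneg _, fun _ _ hi hj => hφ (y.eq_of_ne_zero hi hj)⟩

@[simp] theorem comap_apply (φ : I → J) (hφ : Function.Injective φ) (y : Star J) (i : I) :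
    comap φ hφ y i = y (φ i) := rfl

theorem continuous_comap (φ : I → J) (hφ : Function.Injective φ) : Continuous (comap φ hφ) :=
  continuous_mk fun i => continuous_eval (φ i)

@[simp] theorem comap_zero (φ : I → J) (hφ : Function.Injective φ) : comap φ hφ 0 = 0 := rfl

theorem comap_map [Fintype I] (φ : I → J) (hφ : Function.Injective φ) (x : Star I) :
    comap φ hφ (map φ x) = x := ext fun i => map_apply_injective hφ x i

theorem map_comap [Fintype I] (φ : I → J) (hφ : Function.Injective φ) (y : Star J)
    (hy : ∀ j, y j ≠ 0 → j ∈ range φ) : map φ (comap φ hφ y) = y := by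
  classical
  ext j
  by_cases hj : j ∈ range φ
  · obtain ⟨i, rfl⟩ := hj
    rw [map_apply_injective hφ]
    rfl
  · have h0 : y j = 0 := by
      by_contra h
      exact hj (hy j h)
    rw [h0, map_apply]
    refine Finset.sum_eq_zero fun i _ => ?_
    rw [if_neg]
    rintro rfl
    exact hj ⟨i, rfl⟩

/-! ### the norm and the rays -/

/-- the norm -/
noncomputable def nrm [Fintype I] (x : Star I) : ℝ := ∑ i, x i

theorem continuous_nrm [Fintype I] : Continuous (nrm : Star I → ℝ) :=
  continuous_finsetSum _ fun i _ => continuous_eval i

theorem nrm_nonneg [Fintype I] (x : Star I) : 0 ≤ x.nrm := Finset.sum_nonneg fun _ _ => x.nonneg _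

theorem nrm_eq [Fintype I] (x : Star I) {i : I} (hi : x i ≠ 0) : x.nrm = x i := by
  rw [nrm, Finset.sum_eq_single i]
  · intro b _ hb
    by_contra h
    exact hb (x.eq_of_ne_zero h hi)
  · simp

@[simp] theorem nrm_zero [Fintype I] : (0 : Star I).nrm = 0 := by simp [nrm]

theorem nrm_eq_zero_iff [Fintype I] {x : Star I} : x.nrm = 0 ↔ x = 0 := by
  refine ⟨fun h => ?_, fun h => by rw [h]; simp⟩
  by_contra hne
  obtain ⟨i, hi⟩ := exists_ne_zero hne
  rw [x.nrm_eq hi] at h
  exact hi h

theorem nrm_smul {G : Type*} [Group G] [MulAction G I] [Fintype I] (g : G) (x : Star I) :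
    (g • x).nrm = x.nrm := by
  refine Fintype.sum_equiv (MulAction.toPerm g⁻¹) _ _ fun i => ?_
  simp

open scoped Classical in
/-- the point `t` on the ray of `i` -/
noncomputable def ray (i : I) (t : NNReal) : Star I :=
  ⟨fun j => if j = i then (t : ℝ) else 0, fun j => by
    change 0 ≤ if j = i then (t : ℝ) else 0
    split <;> [exact t.2; exact le_rfl], by
    intro j k hj hk
    by_cases h : j = i
    · by_cases h' : k = i
      · rw [h, h']
      · exact absurd (if_neg h') hk
    · exact absurd (if_neg h) hj⟩

open scoped Classical in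
theorem ray_apply (i : I) (t : NNReal) (j : I) : ray i t j = if j = i then (t : ℝ) else 0 := rfl

theorem ray_self (i : I) (t : NNReal) : ray i t i = t := by simp [ray_apply]

@[simp] theorem ray_zero (i : I) : ray i 0 = 0 := by
  ext j
  simp [ray_apply]

theorem continuous_ray (i : I) : Continuous (ray i : NNReal → Star I) := by
  refine continuous_mk fun j => ?_
  simp only [ray_apply]
  split
  · exact NNReal.continuous_coe
  · exact continuous_const

theorem ray_injective (i : I) : Function.Injective (ray i : NNReal → Star I) := by
  intro s t h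
  have := congrArg (fun z : Star I => z i) h
  simpa [ray_apply] using this

theorem isClosedEmbedding_ray (i : I) : Topology.IsClosedEmbedding (ray i : NNReal → Star I) := by
  refine Topology.IsClosedEmbedding.of_continuous_injective_isClosedMap (continuous_ray i)
    (ray_injective i) ?_
  -- the inverse on the image is the (clipped) evaluation at `i`
  have hinv : ∀ C : Set NNReal, IsClosed C → IsClosed (ray i '' C : Set (Star I)) := by
    intro C hC
    have h : (ray i '' C : Set (Star I)) =
        {x : Star I | ∀ j, j ≠ i → x j = 0} ∩ {x : Star I | (x i).toNNReal ∈ C} := by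
      ext x
      constructor
      · rintro ⟨t, ht, rfl⟩
        refine ⟨fun j hj => by simp [ray_apply, hj], ?_⟩
        simpa [ray_apply] using ht
      · rintro ⟨h1, h2⟩
        refine ⟨(x i).toNNReal, h2, ?_⟩
        ext j
        by_cases hj : j = i
        · subst hj
          rw [ray_apply, if_pos rfl, Real.coe_toNNReal _ (x.nonneg j)]
        · rw [ray_apply, if_neg hj, h1 j hj]
    rw [h]
    refine IsClosed.inter ?_ (hC.preimage (continuous_real_toNNReal.comp (continuous_eval i)))
    have h' : {x : Star I | ∀ j, j ≠ i → x j = 0} = ⋂ j, ⋂ _ : j ≠ i, {x : Star I | x j = 0} := by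
      ext x; simp
    rw [h']
    exact isClosed_iInter fun j => isClosed_iInter fun _ =>
      isClosed_eq (continuous_eval j) continuous_const
  exact hinv

/-- multiplication by a nonnegative number -/
noncomputable def scale (t : NNReal) (x : Star I) : Star I :=
  ⟨fun i => t * x i, fun i => mul_nonneg t.2 (x.nonneg i), fun _ _ hi hj =>
    x.eq_of_ne_zero (right_ne_zero_of_mul hi) (right_ne_zero_of_mul hj)⟩

@[simp] theorem scale_apply (t : NNReal) (x : Star I) (i : I) : scale t x i = t * x i := rfl

theorem continuous_scale : Continuous (fun q : NNReal × Star I => scale q.1 q.2) :=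
  continuous_mk fun i =>
    (NNReal.continuous_coe.comp continuous_fst).mul ((continuous_eval i).comp continuous_snd)

@[simp] theorem scale_zero (t : NNReal) : scale t (0 : Star I) = 0 := ext fun i => by simp

@[simp] theorem zero_scale (x : Star I) : scale 0 x = 0 := ext fun i => by simp

@[simp] theorem one_scale (x : Star I) : scale 1 x = x := ext fun i => by simp

theorem scale_scale (s t : NNReal) (x : Star I) : scale s (scale t x) = scale (s * t) x :=
  ext fun i => by simp [mul_assoc]

theorem scale_smul {G : Type*} [Group G] [MulAction G I] (t : NNReal) (g : G) (x : Star I) :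
    scale t (g • x) = g • scale t x := rfl

end Star

end Vale.Agent.P241.H733
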